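import Claimed.Agent.R315.Top.N4
import Claimed.Agent.R315.Pack010
import Claimed.Agent.R315.T3.Main
import Claimed.Agent.R315.Gs.Aap

/-!
# Row 315: the frozen statement S0571 from the level-1 statements

Level-1 statements (each is the export of one sub-captain; they will move to the files named
below, this file then imports them):

* `if_good`   (IF, helper274, `R315/If/Good.lean`, PROVED)   frozen hypotheses ⇒ `Good n M g`
* `cx_main`   (CX, helper209, `R315/CxCube.lean`, PROVED)   `HasCover (n-1) M g C` ⇒ frozen conclusion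
* `ss_super`  (S-A, helper209, `R315/Gs/Aap.lean`: proved from the GS-* leaves)   `Good` ⇒ drift function with `D(g,w) ≥ 3/4`
* `t3_main`   (T, helper72, `R315/T3/Main.lean`: proved from the level-2 statements of `T3/Geo.lean`)
  `n = 3`: `HasCover 2 M g 500`
* `n4_main`   `n ≥ 4`: `HasCover (n-1) M g C_n`, proved in `Top/N4.lean` from `ss_stretch`
  (S Sec 3-6, helper59) and `pk_main` (P Sec 5-7 + App A-E, helper29 and the P team)
-/

set_option autoImplicit false
open scoped ContDiff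
open MeasureTheory Claims.C0499

namespace Claimed.Agent.R315

/-- S-A: positive supersolution, in logarithmic form. -/
theorem ss_super {n N : ℕ} (M : Set (E N)) (g : Ten (E N)) (h : Good n M g) :
    ∃ w : E N → ℝ, Drift n M g w (3 / 4) :=
  gs_ss_super M g h

/-- T: dimension three. -/
theorem t3_main {N : ℕ} (M : Set (E N)) (g : Ten (E N)) (w : E N → ℝ)
    (h : Drift 3 M g w (3 / 4)) : HasCover 2 M g 500 :=
  t3_main' M g w h

/-- S + P: dimensions at least four. -/
theorem n4_main (n : ℕ) (hn : 4 ≤ n) :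
    ∃ C : ℝ, ∀ (N : ℕ) (M : Set (E N)) (g : Ten (E N)) (w : E N → ℝ),
      Drift n M g w (3 / 4) → HasCover (n - 1) M g C :=
  n4_of_parts n hn

/-- the frozen statement. -/
theorem top (n : ℕ) (hn : 3 ≤ n) :
    ∃ C : ℝ, (n = 3 → C = 500) ∧ ∀ (N : ℕ) (M : Set (EuclideanSpace ℝ (Fin N)))
      (g : EuclideanSpace ℝ (Fin N) →
        EuclideanSpace ℝ (Fin N) →L[ℝ] EuclideanSpace ℝ (Fin N) →L[ℝ] ℝ),
      IsProperSubmanifold n M → IsConnected M → ContDiff ℝ ∞ g →
      (∀ (ψ : EuclideanSpace ℝ (Fin n) → EuclideanSpace ℝ (Fin N))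
        (U : Set (EuclideanSpace ℝ (Fin n))), IsLocalParam M ψ U → ∀ u ∈ U,
          (coordMetric g ψ u).PosDef) →
      (∀ x ∈ M, ∀ R : ℝ, IsCompact {y | y ∈ M ∧ riemDist M g x y ≤ R}) →
      (∀ φ : EuclideanSpace ℝ (Fin N) → ℝ, ContDiff ℝ ∞ φ → HasCompactSupport φ →
        ∫ x in M, φ x ^ 2 *
            paramValue M (fun ψ u => Real.sqrt ((coordMetric g ψ u).det /
              (Matrix.of fun i j : Fin n => inner ℝ (fderiv ℝ ψ u (EuclideanSpace.single i 1))
                (fderiv ℝ ψ u (EuclideanSpace.single j 1))).det)) x ∂μH[(n : ℝ)] ≤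
          ∫ x in M, paramValue M (fun ψ u =>
              (4 * ∑ i : Fin n, ∑ j : Fin n, (coordMetric g ψ u)⁻¹ i j *
                  pdiff (φ ∘ ψ) i u * pdiff (φ ∘ ψ) j u +
                scalarCoord (coordMetric g ψ) u * φ (ψ u) ^ 2) *
              Real.sqrt ((coordMetric g ψ u).det /
                (Matrix.of fun i j : Fin n => inner ℝ (fderiv ℝ ψ u (EuclideanSpace.single i 1))
                  (fderiv ℝ ψ u (EuclideanSpace.single j 1))).det)) x ∂μH[(n : ℝ)]) →
      ∃ (V : Type) (_ : NormedAddCommGroup V) (_ : NormedSpace ℝ V)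
        (K : Geometry.SimplicialComplex ℝ V) (f : EuclideanSpace ℝ (Fin N) → V),
        (∀ s ∈ K.faces, s.card ≤ n - 1) ∧ ContinuousOn f M ∧ (∀ x ∈ M, f x ∈ K.space) ∧
        (∀ x ∈ M, ∃ W ∈ nhds x, ∃ S : Finset (Finset V), ↑S ⊆ K.faces ∧
          f '' (W ∩ M) ⊆ ⋃ s ∈ S, convexHull ℝ (s : Set V)) ∧
        ∀ x ∈ M, ∀ x' ∈ M, f x = f x' → riemDist M g x x' ≤ C := by
  rcases Nat.lt_or_ge n 4 with h3 | h4
  · obtain rfl : n = 3 := by omega
    refine ⟨500, fun _ => rfl, ?_⟩
    intro N M g h1 h2 h3 h4 h5 h6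
    have hG := if_good M g h1 h2 h3 h4 h5 h6
    obtain ⟨w, hw⟩ := ss_super M g hG
    exact cx_main (le_refl 3) M g 500 hG.closed (t3_main M g w hw)
  · obtain ⟨C, hC⟩ := n4_main n h4
    refine ⟨C, fun h => by omega, ?_⟩
    intro N M g h1 h2 h3 h4' h5 h6
    have hG := if_good M g h1 h2 h3 h4' h5 h6
    obtain ⟨w, hw⟩ := ss_super M g hG
    exact cx_main hn M g C hG.closed (hC N M g w hw)

end Claimed.Agent.R315
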