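import Claimed.Agent.R315.Pack006
import Claimed.Agent.R315.Pk.Main
import Claimed.Agent.R315.Ss.Chain

/-!
# Row 315, `n ≥ 4`: interface between paper S (stretching) and paper P (partitions)

`Stretched n M g D` = the hypotheses of S Theorem 2.1 (`interface:width`), in the DRIFT formalism
(ruling 4 of 07:26Z): no circle factors, no warp lists; the only curvature quantity of the row is
`Dsc d M h t = Scal_h + 2 Δ_h t - |dt|²_h`, the weight is `e^{-t}`.  The net is `(D-1)`-dense
(helper29's output needs `x ∈ B(x_i, D-1) ⇒ q x ∈ A_i`).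

* `ss_stretch` (helper59, `R315/Ss/`): S Sections 3-6.
* `pk_main` (helper29 + P team, `R315/Pk/`): P Sections 5-7 + Appendices A-E.
-/

set_option autoImplicit false
open scoped ContDiff
open MeasureTheory Claims.C0499

namespace Claimed.Agent.R315

variable {V : Type} [NormedAddCommGroup V] [NormedSpace ℝ V]

/-- S Sections 3-6: a drift bound gives stretched data at a scale depending only on `n`
(or `M` has diameter at most `4 D`). -/
theorem ss_stretch (n : ℕ) (hn : 4 ≤ n) :
    ∃ D : ℝ, 2 ≤ D ∧ ∀ (N : ℕ) (M : Set (E N)) (g : Ten (E N)) (w : E N → ℝ),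
      Drift n M g w (3 / 4) →
        (∀ y ∈ M, ∀ z ∈ M, rdist M g y z ≤ 4 * D) ∨ Nonempty (Stretched n M g D) :=
  ss_stretch_pf n hn

/-- P Sections 5-7, Appendices A-E (= S Theorem 2.1), in cover form. -/
theorem pk_main (n : ℕ) (hn : 4 ≤ n) {N : ℕ} (M : Set (E N)) (g : Ten (E N)) (D : ℝ) (hD : 2 ≤ D)
    (h1 : IsMfd n M) (h2 : IsClosed M) (h3 : IsConnected M) (h4 : IsMetricOn n M g)
    (h5 : IsProperOn M g) (S : Stretched n M g D) :
    HasCover (n - 1) M g (4 * D + 2) :=
  pk_stretched n hn M g D hD h1 h2 h3 h4 h5 S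

/-- a bounded manifold has the trivial cover. -/
theorem hasCover_of_bounded {k : ℕ} (hk : 1 ≤ k) (M : Set V) (g : Ten V) (C : ℝ)
    (h : ∀ y ∈ M, ∀ z ∈ M, rdist M g y z ≤ C) : HasCover k M g C := by
  refine ⟨Unit, fun _ => Set.univ, fun _ => isOpen_univ, ?_, ?_, ?_, ?_⟩
  · intro x _; exact Set.mem_iUnion.2 ⟨(), trivial⟩
  · intro x _; exact ⟨Set.univ, Filter.univ_mem, Set.toFinite _⟩
  · intro x _ s _
    calc s.card ≤ (Finset.univ : Finset Unit).card := Finset.card_le_card (Finset.subset_univ s)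
      _ = 1 := rfl
      _ ≤ k := hk
  · intro _ x hx y hy; exact h x hx.1 y hy.1

theorem HasCover.mono {k : ℕ} {M : Set V} {g : Ten V} {C C' : ℝ} (h : HasCover k M g C)
    (hC : C ≤ C') : HasCover k M g C' := by
  obtain ⟨ι, U, h1, h2, h3, h4, h5⟩ := h
  exact ⟨ι, U, h1, h2, h3, h4, fun i x hx y hy => (h5 i x hx y hy).trans hC⟩

/-- `n ≥ 4`. -/
theorem n4_of_parts (n : ℕ) (hn : 4 ≤ n) :
    ∃ C : ℝ, ∀ (N : ℕ) (M : Set (E N)) (g : Ten (E N)) (w : E N → ℝ),
      Drift n M g w (3 / 4) → HasCover (n - 1) M g C := by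
  obtain ⟨D, hD, hS⟩ := ss_stretch n hn
  refine ⟨4 * D + 2, ?_⟩
  intro N M g w hw
  rcases hS N M g w hw with hb | hS'
  · exact (hasCover_of_bounded (by omega) M g (4 * D) hb).mono (by linarith)
  · obtain ⟨S⟩ := hS'
    exact pk_main n hn M g D hD hw.mfd hw.closed hw.conn hw.met hw.proper S

end Claimed.Agent.R315
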